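import Crest.Agent.X212.Pj41.Two

-- ▼ part X212/Pj41/Lit
section

/-!
# X212 / MDG (helper41): making a configuration literally equal to a second one
-/

set_option autoImplicit false
set_option linter.unusedSectionVars false

open Set Function Filter Topology
open scoped ContDiff Manifold InnerProductSpace

namespace Crest.Agent.X212.Pj41

open An Sob92
open Tmp64 (AdmOn Eq0 admOn_univ)

noncomputable section

variable {E : Type} [NormedAddCommGroup E] [NormedSpace ℝ E] [FiniteDimensional ℝ E]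
  [MeasurableSpace E] [BorelSpace E]
  {HM : Type} [TopologicalSpace HM] {I : ModelWithCorners ℝ E HM}
  {M : Type} [TopologicalSpace M] [ChartedSpace HM M] [IsManifold I ∞ M]
  [MeasurableSpace M] {ι : Type} [Fintype ι] {lam : Type} [Fintype lam]
  {B : Base M ι lam} {G : Geo I M ι lam} {m m' : Md M ι lam} {O U : Set M} {r r' : ℕ}

theorem Sum2.rot {N₁ N₂ N : ℕ} {J₁ : En (Fin N₁)} {J₂ : En (Fin N₂)} {J : En (Fin N)}
    {i₁ : CL (Eu (Fin N₁)) (Eu (Fin N))} {i₂ : CL (Eu (Fin N₂)) (Eu (Fin N))}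
    (S : Sum2 J₁ J₂ J i₁ i₂) {p : En (Fin N₁)} {q : En (Fin N₂)} {u : CL (Eu (Fin N₁)) (Eu (Fin N₂))}
    (hu : CIso u p q) (h1 : J₁ * p = p * J₁) (h2 : J₂ ∘L u = u ∘L J₁) {c s : ℝ}
    (h : c ^ 2 + s ^ 2 = 1) :
    ad (c • (i₁ ∘L p) + s • (i₂ ∘L u)) ∘L (c • (i₁ ∘L p) + s • (i₂ ∘L u)) = p ∧
      J ∘L (c • (i₁ ∘L p) + s • (i₂ ∘L u)) = (c • (i₁ ∘L p) + s • (i₂ ∘L u)) ∘L J₁ := by
  have i11 : ∀ v, ad i₁ (i₁ v) = v := fun v => congrArg (fun L : En (Fin N₁) => L v) S.e₁.iso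
  have i22 : ∀ v, ad i₂ (i₂ v) = v := fun v => congrArg (fun L : En (Fin N₂) => L v) S.e₂.iso
  have i12 : ∀ v, ad i₁ (i₂ v) = 0 := fun v => DFunLike.congr_fun S.orth v
  have i21 : ∀ v, ad i₂ (i₁ v) = 0 := fun v => by
    have := congrArg ad S.orth
    rw [ad_comp, ad_ad, ad_zero] at this
    exact DFunLike.congr_fun this v
  have e1 : ∀ v, ad u (u v) = p v := fun v => DFunLike.congr_fun hu.src v
  have j1 : ∀ v, J (i₁ v) = i₁ (J₁ v) := fun v => DFunLike.congr_fun S.e₁.J v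
  have j2 : ∀ v, J (i₂ v) = i₂ (J₂ v) := fun v => DFunLike.congr_fun S.e₂.J v
  have j3 : ∀ v, J₁ (p v) = p (J₁ v) := fun v => DFunLike.congr_fun h1 v
  have j4 : ∀ v, J₂ (u v) = u (J₁ v) := fun v => DFunLike.congr_fun h2 v
  constructor <;> ext1 v
  · simp only [ad_add, ad_smul, ad_comp, hu.prj_src.herm, ContinuousLinearMap.comp_apply, add_apply,
      smul_apply, map_add, map_smul, i11, i12, i21, i22, smul_zero, add_zero, zero_add, map_zero,
      hu.prj_src.app, smul_smul, e1]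
    rw [← add_smul, ← sq, ← sq, h, one_smul]
  · simp only [ContinuousLinearMap.comp_apply, add_apply, smul_apply, map_add, map_smul, j1, j2, j3,
      j4]

theorem fsm_st {h : M → ℝ} (hh : Sm I h) (a b : ℝ) (x : M) :
    FSm I (fun y => Real.smoothTransition (a * h y + b)) x :=
  (Real.smoothTransition.contDiff.comp ((contDiff_const.mul contDiff_id).add
    contDiff_const)).contDiffAt.comp_contMDiffAt (hh x)

/-- rotation of a module into a second one -/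
theorem exists_rot (hm : m.OK I B) {u : M → CL m.V m'.V} (hu : Iso0 I m m' O u) {h : M → ℝ}
    (hh : Sm I h) (hs : ∀ x, 0 < h x → x ∈ O) {N : ℕ} {J : En (Fin N)}
    {i₁ : CL m.V (Eu (Fin N))} {i₂ : CL m'.V (Eu (Fin N))} (S : Sum2 m.J m'.J J i₁ i₂) :
    ∃ a : M → CL m.V (Eu (Fin N)), OKOn I B (cjM m J a) univ ∧ Iso0 I m (cjM m J a) univ a ∧
      (∀ x, h x ≤ 2 → a x = i₁ ∘L m.p x) ∧ ∀ x, 3 ≤ h x → a x = i₂ ∘L u x := by
  obtain ⟨θ, hθ⟩ : ∃ θ : M → ℝ, θ = fun x => Real.pi / 2 * Real.smoothTransition (1 * h x + -2) :=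
    ⟨_, rfl⟩
  have sθ : ∀ x, FSm I θ x := fun x => hθ ▸ contMDiffAt_const.mul (fsm_st hh _ _ x)
  obtain ⟨a, ha⟩ : ∃ a : M → CL m.V (Eu (Fin N)), a = fun x =>
    Real.cos (θ x) • (i₁ ∘L m.p x) + Real.sin (θ x) • (i₂ ∘L u x) := ⟨_, rfl⟩
  have a1 : ∀ x, h x ≤ 2 → a x = i₁ ∘L m.p x := fun x hx => by
    simp [ha, hθ, Real.smoothTransition.zero_of_nonpos (show h x + -2 ≤ 0 by linarith)]
  have a2 : ∀ x, 3 ≤ h x → a x = i₂ ∘L u x := fun x hx => by
    simp [ha, hθ, Real.smoothTransition.one_of_one_le (show 1 ≤ h x + -2 by linarith)]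
  have cs : ∀ x, h x < 2 ∨ x ∈ O := fun x => (lt_or_ge (h x) 2).imp_right fun k => hs x (by linarith)
  have sp : ∀ x, FSm I (fun x => i₁ ∘L m.p x) x := fun x => FSm.cc contMDiffAt_const (hm.sp x)
  have key : ∀ x, ad (a x) ∘L a x = m.p x ∧ J ∘L a x = a x ∘L m.J := fun x => by
    rcases cs x with hx | hx
    · have k := (OK.on hm univ).prj (mem_univ x)
      rw [a1 x hx.le, ad_comp, k.herm, ContinuousLinearMap.comp_assoc,
        ← ContinuousLinearMap.comp_assoc (ad i₁), S.e₁.iso, ← ContinuousLinearMap.comp_assoc J,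
        S.e₁.J]
      exact ⟨k.idem, congrArg (i₁ ∘L ·) (hm.Jp x)⟩
    · rw [ha]; exact S.rot (hu.iso x hx) (hm.Jp x) (hu.J x hx) (Real.cos_sq_add_sin_sq _)
  obtain ⟨k1, k2⟩ := cjM_ok (OK.on hm univ) isOpen_univ (J := J) (a := a) (fun x _ => by
      rcases cs x with hx | hx
      · exact (sp x).congr_of_eventuallyEq (eventually_of_mem
          ((isOpen_lt hh.continuous continuous_const).mem_nhds hx) fun y hy => a1 y (le_of_lt hy))
      · rw [ha]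
        exact (ContMDiffAt.smul (Real.contDiff_cos.contDiffAt.comp_contMDiffAt (sθ x)) (sp x)).add
          (ContMDiffAt.smul (Real.contDiff_sin.contDiffAt.comp_contMDiffAt (sθ x))
            (FSm.cc contMDiffAt_const (hu.su x hx))))
    (fun x _ => (key x).1) S.e₁.sq S.e₁.sk fun x _ => (key x).2
  exact ⟨a, k1, k2, a1, a2⟩

/-- where `a = i ∘ u` the conjugate module carries the stabilised configuration -/
theorem admOn_cj {c₂ : Cfg M ι lam r'} {u : M → CL m.V c₂.m.V} (hO : IsOpen O)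
    (h₂ : AdmOn c₂ B G O) (hu : Iso0 I m c₂.m O u) {N : ℕ} {J : En (Fin N)}
    {i : CL c₂.m.V (Eu (Fin N))} (hi : Emb c₂.m.J J i) {a : M → CL m.V (Eu (Fin N))}
    (ha : ∀ x ∈ O, a x = i ∘L u x) :
    AdmOn ⟨cjM m J a, (stab c₂ J i).W, (stab c₂ J i).Φ, c₂.z⟩ B G O :=
  admOn_same hO (fun x hx => by rw [ha x hx]; exact hu.cj_p hx _)
    (fun b x hx => by rw [ha x hx]; exact hu.cj_ρ h₂.ok hx _ b)
    (fun x hx => by rw [ha x hx]; exact hu.cj_j h₂.ok hx _) (stab_spec hi hO h₂).1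
    (fun _ _ _ => rfl) (fun _ _ => rfl) h₂.z

theorem par0_cj {c₂ : Cfg M ι lam r'} {u : M → CL m.V c₂.m.V} (hO : IsOpen O)
    (h₂ : AdmOn c₂ B G O) (hu : Iso0 I m c₂.m O u) {N : ℕ} {J : En (Fin N)}
    {i : CL c₂.m.V (Eu (Fin N))} (hi : Emb c₂.m.J J i) {a : M → CL m.V (Eu (Fin N))}
    (ha : ∀ x ∈ O, a x = i ∘L u x) {W : m.Cn} (hp : Par0 G.F W c₂.W O u) :
    Par0 G.F (m' := cjM m J a) W (stab c₂ J i).W O a :=
  have k := (stab_spec hi hO h₂).2
  (hp.trans k.par hu.su k.iso.su).congr hO fun x hx => by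
    beta_reduce
    rw [ha x hx, ContinuousLinearMap.comp_assoc, (hu.iso x hx).left]

theorem exists_cut {h : M → ℝ} (hh : Continuous h) {a b s t : ℝ} (e : ∀ x, a * h x + b ≤ 0 ∨ s ≤ t * h x)
    {s' : ℝ} (hs : s' < s) :
    tsupport (fun x => Real.smoothTransition (a * h x + b)) ⊆ {x | s' < t * h x} :=
  (closure_minimal (t := {x | s ≤ t * h x}) (fun x hx => (e x).resolve_left fun k =>
    mem_support.1 hx (Real.smoothTransition.zero_of_nonpos k))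
      (isClosed_le continuous_const (continuous_const.mul hh))).trans fun _ hx => hs.trans_le hx

/-- the two cut-off functions -/
theorem exists_cuts {h : M → ℝ} (hh : Sm I h) : ∃ χ₁ χ₂ : M → ℝ, (∀ x, FSm I χ₁ x) ∧
    (∀ x, FSm I χ₂ x) ∧ tsupport χ₁ ⊆ {x | h x < 2} ∧ tsupport χ₂ ⊆ {x | 3 < h x} ∧
    (∀ x, h x ≤ 1 → χ₁ x = 1 ∧ χ₂ x = 0) ∧ ∀ x, 4 ≤ h x → χ₂ x = 1 :=
  ⟨_, _, fsm_st hh (-2) 3, fsm_st hh 2 (-7),
    (exists_cut hh.continuous (s := -3 / 2) (t := -1) (s' := -2)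
      (fun x => (le_total _ _).imp_right fun k => by linarith) (by norm_num)).trans
      fun x hx => by simpa using hx,
    (exists_cut hh.continuous (s := 7 / 2) (t := 1) (s' := 3)
      (fun x => (le_total _ _).imp_right fun k => by linarith) (by norm_num)).trans
      fun x hx => by simpa using hx,
    fun x hx => ⟨Real.smoothTransition.one_of_one_le (by linarith),
      Real.smoothTransition.zero_of_nonpos (by linarith)⟩,
    fun x hx => Real.smoothTransition.one_of_one_le (by linarith)⟩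

theorem exists_mix {W₀ W₁ W₂ : m'.Cn} {U₁ U₂ : Set M} (h0 : ConnOn B G m' W₀ univ)
    (h1 : ConnOn B G m' W₁ U₁) (h2 : ConnOn B G m' W₂ U₂) {χ₁ χ₂ : M → ℝ} (q1 : ∀ x, FSm I χ₁ x)
    (q2 : ∀ x, FSm I χ₂ x) (t1 : tsupport χ₁ ⊆ U₁) (t2 : tsupport χ₂ ⊆ U₂) {W' : m.Cn}
    {u : M → CL m.V m'.V} (p0 : Par0 G.F W' W₀ univ u) (p1 : Par0 G.F W' W₁ U₁ u) :
    ∃ W : m'.Cn, ConnOn B G m' W univ ∧ (∀ b x, χ₁ x = 1 → χ₂ x = 0 → W b x = W₁ b x) ∧
      (∀ b x, χ₂ x = 1 → W b x = W₂ b x) ∧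
      ∀ U, Par0 G.F W' W₂ (U ∩ U₂) u → Par0 G.F W' W U u :=
  ⟨_, (h0.aff (h1.mono inter_subset_right) (fun x _ => q1 x) t1).aff
    (h2.mono inter_subset_right) (fun x _ => q2 x) t2,
    fun _ _ k1 k2 => (aff_zero k2).trans (aff_one k1), fun _ _ k => aff_one k,
    fun U k => ((p0.aff (p1.mono inter_subset_right) t1).mono (subset_univ U)).aff k t2⟩

/-- **a configuration is made literally equal to a second one** where `h ≥ 4` -/
theorem exists_lit (hG : G.F.P = B.P) {c : Cfg M ι lam r} (hc : c.Adm B G) {c₂ : Cfg M ι lam r'}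
    (h₂ : AdmOn c₂ B G O) {u : M → CL c.m.V c₂.m.V} (hu : Iso0 I c.m c₂.m O u) {h : M → ℝ}
    (hh : Sm I h) (hs : ∀ x, 0 < h x → x ∈ O) :
    ∃ (c' : Cfg M ι lam r) (i₁ : CL c.m.V c'.m.V) (i₂ : CL c₂.m.V c'.m.V)
      (a : M → CL c.m.V c'.m.V), Sum2 c.m.J c₂.m.J c'.m.J i₁ i₂ ∧ c'.Adm B G ∧
      Iso0 I c.m c'.m univ a ∧ (∀ x, h x ≤ 1 → LitAt c' c i₁ x x) ∧
      (∀ x, h x ≤ 2 → a x = i₁ ∘L c.m.p x) ∧ (∀ x, 3 ≤ h x → a x = i₂ ∘L u x) ∧
      (∀ x, 4 ≤ h x → LitAt c' c₂ i₂ x x) ∧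
      ∀ U, IsOpen U → Par0 G.F c.W c₂.W (U ∩ {x | 3 < h x}) u →
        (∀ x ∈ U, 3 < h x → c₂.Φ x = u x (c.Φ x)) → Eq0 G.F c c' U a := by
  obtain ⟨J, i₁, i₂, S⟩ := exists_sum2 hc.ok.Jsq hc.ok.Jsk h₂.ok.Jsq h₂.ok.Jsk
  obtain ⟨a, k1, k2, a1, a2⟩ := exists_rot hc.ok hu hh hs S
  have hc' := admOn_univ.2 hc
  have r0 := Iso0.refl hc'.ok
  have o1 : IsOpen {x | h x < 2} := isOpen_lt hh.continuous continuous_const
  have o2 : IsOpen {x | 3 < h x} := isOpen_lt continuous_const hh.continuous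
  have s2 : {x | 3 < h x} ⊆ O := fun x hx => hs x (lt_trans (by norm_num) hx)
  obtain ⟨χ₁, χ₂, q1, q2, t1, t2, z1, z2⟩ := exists_cuts hh
  have B1 := admOn_cj o1 (hc'.mono (subset_univ _)) (r0.mono (subset_univ _)) S.e₁
    fun x hx => a1 x (le_of_lt hx)
  have B2 := admOn_cj o2 (h₂.mono s2) (hu.mono s2) S.e₂ fun x hx => a2 x (le_of_lt hx)
  obtain ⟨W0, P0⟩ := conn_push k2 isOpen_univ hc'.ok k1 hG hc'.conn
  obtain ⟨W, W2, w1, w2, w3⟩ := exists_mix W0 B1.conn B2.conn q1 q2 t1 t2 P0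
    (par0_cj o1 (hc'.mono (subset_univ _)) (r0.mono (subset_univ _)) S.e₁
      (fun x hx => a1 x (le_of_lt hx)) (hc'.conn.par0_refl.mono (subset_univ _)))
  refine ⟨⟨cjM c.m J a, W, aff χ₂ (fun x => a x (c.Φ x)) fun x => i₂ (c₂.Φ x), c.z⟩, i₁, i₂, a, S,
    ⟨okOn_univ.1 k1, W2.isConn (okOn_univ.1 k1), fun x => FSm.aff (q2 x) t2
      ((k2.su x trivial).clm_apply (hc.sm x)) (B2.sm x), fun x => sub_eq_zero.1 ?_, hc.z⟩, k2,
    fun x hx => ?_, a1, a2, fun x hx => ?_, fun U hU hp hΦ => ⟨k2.mono (subset_univ _), ?_,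
      fun x hx => ?_, rfl⟩⟩
  · exact aff_lin (f := fun x => a x (c.Φ x)) (g := fun x => i₂ (c₂.Φ x))
      (((cjM c.m J a).pp B x).toLinearMap - LinearMap.id) t2
      (sub_eq_zero.2 ((k2.pp trivial _).trans (congrArg _ (hc.pos x))))
      fun k => sub_eq_zero.2 (B2.pos x k)
  · have e := a1 x (by linarith)
    refine ⟨?_, fun b => ?_, ?_, fun b => w1 b x (z1 x hx).1 (z1 x hx).2,
      (aff_zero (f := fun x => a x (c.Φ x)) (g := fun x => i₂ (c₂.Φ x)) (z1 x hx).2).trans ?_⟩ <;>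
      dsimp only <;> rw [e]
    exacts [r0.cj_p trivial _, r0.cj_ρ hc'.ok trivial _ b, r0.cj_j hc'.ok trivial _,
      congrArg i₁ (hc'.pΦ trivial)]
  · have e := a2 x (by linarith)
    have hO := hs x (by linarith)
    refine ⟨?_, fun b => ?_, ?_, fun b => w2 b x (z2 x hx),
      aff_one (f := fun x => a x (c.Φ x)) (g := fun x => i₂ (c₂.Φ x)) (z2 x hx)⟩ <;>
      dsimp only <;> rw [e]
    exacts [hu.cj_p hO _, hu.cj_ρ h₂.ok hO _ b, hu.cj_j h₂.ok hO _]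
  · exact w3 U (par0_cj (hU.inter o2) (h₂.mono fun _ k => s2 k.2)
      (hu.mono fun _ k => s2 k.2) S.e₂ (fun x hx => a2 x (le_of_lt hx.2)) hp)
  · exact aff_lin (f := fun x => a x (c.Φ x)) (g := fun x => i₂ (c₂.Φ x)) LinearMap.id t2 rfl
      fun k => by rw [a2 x (le_of_lt k), hΦ x hx k]; rfl

end

end Crest.Agent.X212.Pj41
end

-- ▼ part X212/Pj41/Grl

/-!
# X212 / MDG (helper41): literally related backgrounds, extension of a configuration
-/

set_option autoImplicit false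
set_option linter.unusedSectionVars false

open Set Function Filter Topology
open scoped ContDiff Manifold InnerProductSpace

namespace Crest.Agent.X212.Pj41

open An Sob92
open Tmp64 (AdmOn Eq0 admOn_univ)

noncomputable section

variable {E : Type} [NormedAddCommGroup E] [NormedSpace ℝ E] [FiniteDimensional ℝ E]
  [MeasurableSpace E] [BorelSpace E]
  {HM : Type} [TopologicalSpace HM] {I : ModelWithCorners ℝ E HM} [I.Boundaryless]
  {M : Type} [TopologicalSpace M] [ChartedSpace HM M] [IsManifold I ∞ M]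
  [MeasurableSpace M] {ι : Type} [Fintype ι] {lam : Type} [Fintype lam]
  {E' : Type} [NormedAddCommGroup E'] [NormedSpace ℝ E'] [FiniteDimensional ℝ E']
  [MeasurableSpace E'] [BorelSpace E']
  {HM' : Type} [TopologicalSpace HM'] {I' : ModelWithCorners ℝ E' HM'} [I'.Boundaryless]
  {M' : Type} [TopologicalSpace M'] [ChartedSpace HM' M'] [IsManifold I' ∞ M']
  [MeasurableSpace M']
  {B : Base M ι lam} {G : Geo I M ι lam} {B' : Base M' ι lam} {G' : Geo I' M' ι lam}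
  {ψ : M → M'} {O O₁ : Set M} {r r' : ℕ}
  {V : Type} [NormedAddCommGroup V] [NormedSpace ℝ V]

theorem fsm_ld {x : M} (h : IsLocalDiffeomorphAt I I' ∞ ψ x) {u : M' → V}
    (hu : FSm I (fun y => u (ψ y)) x) : FSm I' u (ψ x) := by
  have h3 : FSm I (fun y => u (ψ y)) (h.localInverse (ψ x)) := by
    rwa [h.localInverse_left_inv h.localInverse_mem_target]
  refine (ContMDiffAt.comp (ψ x) h3 h.localInverse_contMDiffAt).congr_of_eventuallyEq ?_
  filter_upwards [h.localInverse_eventuallyEq_right] with y hy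
  simp only [comp_apply] at hy ⊢
  rw [hy]; rfl

theorem FRel.isOpen_image {F : Fr I M ι} {F' : Fr I' M' ι} (h : FRel F F' ψ O) :
    IsOpen (ψ '' O) := isOpen_iff_mem_nhds.2 (forall_mem_image.2 fun x hx => by
  have k := h.ld x hx
  have h1 : k.localInverse ⁻¹' O ∈ 𝓝 (ψ x) := k.localInverse_contMDiffAt.continuousAt.preimage_mem_nhds
    (by rw [k.localInverse_left_inv k.localInverse_mem_target]; exact h.op.mem_nhds hx)
  filter_upwards [h1, k.localInverse_eventuallyEq_right] with y h2 h3 using ⟨_, h2, h3⟩)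

variable (B G B' G' ψ O) in
/-- backgrounds which are literally related by the local diffeomorphism `ψ` over the open `O` -/
structure GRel : Prop where
  fr : FRel G.F G'.F ψ O
  P : ∀ a b, ∀ x ∈ O, B.P a b x = B'.P a b (ψ x)
  o : ∀ a b c d, ∀ x ∈ O, B.o a b c d x = B'.o a b c d (ψ x)
  l : ∀ x ∈ O, B.l x = B'.l (ψ x)
  il : B.il = B'.il
  a : ∀ a, ∀ x ∈ O, G.a a x = G'.a a (ψ x)

theorem FRel.gRel (h : FRel G.F G'.F ψ O) (hB : B = cmB ψ B')
    (ha : ∀ a, ∀ x ∈ O, G.a a x = G'.a a (ψ x)) : GRel B G B' G' ψ O :=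
  hB ▸ ⟨h, fun _ _ _ _ => rfl, fun _ _ _ _ _ _ => rfl, fun _ _ => rfl, rfl, ha⟩

namespace GRel
variable (h : GRel B G B' G' ψ O)
include h

theorem mono (h1 : IsOpen O₁) (hs : O₁ ⊆ O) : GRel B G B' G' ψ O₁ :=
  ⟨h.fr.mono h1 hs, fun a b x hx => h.P a b x (hs hx), fun a b c d x hx => h.o a b c d x (hs hx),
    fun x hx => h.l x (hs hx), h.il, fun a x hx => h.a a x (hs hx)⟩

theorem pp (m : Md M' ι lam) {x : M} (hx : x ∈ O) : (cmM ψ m).pp B x = m.pp B' (ψ x) := by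
  simp only [Md.pp, Md.om, h.o _ _ _ _ x hx]

theorem okOn_iff {m : Md M' ι lam} : OKOn I B (cmM ψ m) O ↔ OKOn I' B' m (ψ '' O) := by
  have s : ∀ {V : Type} [NormedAddCommGroup V] [NormedSpace ℝ V] {u : M' → V}, ∀ x ∈ O,
      FSm I (fun y => u (ψ y)) x ↔ FSm I' u (ψ x) := fun x hx =>
    ⟨fsm_ld (h.fr.ld x hx), h.fr.sm hx⟩
  refine ⟨fun k => ⟨k.Jsq, k.Jsk, forall_mem_image.2 fun x hx => (s x hx).1 (k.sp x hx),
    fun a => forall_mem_image.2 fun x hx => (s x hx).1 (k.sρ a x hx),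
    forall_mem_image.2 fun x hx => (s x hx).1 (k.sj x hx), forall_mem_image.2 k.psym,
    forall_mem_image.2 k.pidem, forall_mem_image.2 k.prk, forall_mem_image.2 k.Jp,
    forall_mem_image.2 fun x hx => by simpa only [h.P _ _ x hx] using k.cl x hx,
    fun a => forall_mem_image.2 (k.ρsk a), fun a => forall_mem_image.2 (k.Jρ a),
    forall_mem_image.2 k.jsym, forall_mem_image.2 k.jJ, forall_mem_image.2 (h.il ▸ k.jil),
    forall_mem_image.2 fun x hx => h.l x hx ▸ k.jl x hx,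
    forall_mem_image.2 fun x hx => h.l x hx ▸ k.jsq x hx, forall_mem_image.2 k.pj,
    fun a => forall_mem_image.2 (k.jρ a)⟩, fun k' => ?_⟩
  have k := cmM_okOn (fun x hx => (h.fr.ld x hx).contMDiffAt) (mapsTo_image ψ O) k'
  exact ⟨k.Jsq, k.Jsk, k.sp, k.sρ, k.sj, k.psym, k.pidem, k.prk, k.Jp,
    fun x hx => by simp only [h.P _ _ x hx]; exact k.cl x hx, k.ρsk, k.Jρ, k.jsym, k.jJ,
    h.il ▸ k.jil, fun x hx => h.l x hx ▸ k.jl x hx, fun x hx => h.l x hx ▸ k.jsq x hx, k.pj, k.jρ⟩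

theorem connOn_iff {m : Md M' ι lam} {W : m.Cn} :
    ConnOn B G (cmM ψ m) (fun a x => W a (ψ x)) O ↔ ConnOn B' G' m W (ψ '' O) := by
  have d : ∀ {V : Type} [NormedAddCommGroup V] [NormedSpace ℝ V] (u : M' → V) (a), ∀ x ∈ O,
      G.F.D a (fun y => u (ψ y)) x = G'.F.D a u (ψ x) := fun u a x hx =>
    h.fr.D hx a (.of_forall fun _ => rfl)
  refine ⟨fun k => ⟨fun a => forall_mem_image.2 fun x hx => fsm_ld (h.fr.ld x hx) (k.sm a x hx),
    fun a => forall_mem_image.2 fun x hx => by simpa only [h.P _ _ x hx] using k.proj a x hx,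
    fun a => forall_mem_image.2 fun x hx => by simpa only [d _ _ x hx] using k.par a x hx,
    fun a b => forall_mem_image.2 fun x hx => by
      simpa only [d _ _ x hx, h.fr.Gam hx] using k.comp a b x hx,
    fun a => forall_mem_image.2 (k.sk a), fun a => forall_mem_image.2 (k.J a),
    fun a => forall_mem_image.2 fun x hx s => by
      simpa only [d _ _ x hx, h.a a x hx] using k.j a x hx s⟩, fun k' => ?_⟩
  have k := h.fr.connOn h.a (mapsTo_image ψ O) k'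
  exact ⟨k.sm, fun a x hx => by simp only [h.P _ _ x hx]; exact k.proj a x hx, k.par, k.comp, k.sk,
    k.J, k.j⟩

/-- **admissibility is invariant** -/
theorem admOn_iff {c : Cfg M' ι lam r} : AdmOn (cmC ψ c) B G O ↔ AdmOn c B' G' (ψ '' O) :=
  ⟨fun k => ⟨h.okOn_iff.1 k.ok, h.connOn_iff.1 k.conn,
    forall_mem_image.2 fun x hx => fsm_ld (h.fr.ld x hx) (k.sm x hx),
    forall_mem_image.2 fun x hx => h.pp c.m hx ▸ k.pos x hx, k.z⟩,
   fun k => ⟨h.okOn_iff.2 k.ok, h.connOn_iff.2 k.conn, fun x hx => h.fr.sm hx (k.sm _ ⟨x, hx, rfl⟩),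
    fun x hx => (h.pp c.m hx).symm ▸ k.pos _ ⟨x, hx, rfl⟩, k.z⟩⟩

end GRel

section frel
variable {F : Fr I M ι} {F' : Fr I' M' ι} (h : FRel F F' ψ O) {m m' : Md M' ι lam}
  {u : M' → CL m.V m'.V}
include h

theorem FRel.iso0_push (k : Iso0 I (cmM ψ m) (cmM ψ m') O fun x => u (ψ x)) :
    Iso0 I' m m' (ψ '' O) u :=
  ⟨forall_mem_image.2 fun x hx => fsm_ld (h.ld x hx) (k.su x hx), forall_mem_image.2 k.iso,
    forall_mem_image.2 k.J, forall_mem_image.2 k.ρ, forall_mem_image.2 k.j⟩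

theorem FRel.par0_push {W : m.Cn} {W' : m'.Cn} (k : Par0 F (m := cmM ψ m) (m' := cmM ψ m')
    (fun a x => W a (ψ x)) (fun a x => W' a (ψ x)) O fun x => u (ψ x)) :
    Par0 F' W W' (ψ '' O) u := forall_mem_image.2 fun x hx a => by
  rw [← h.D hx a (u := fun x => u (ψ x)) (.of_forall fun _ => rfl)]; exact k x hx a

end frel

/-! ### bounds -/

/-- all data of a configuration have the bounds `C` -/
structure CBc (F : Pre I M ι) (c : Cfg M ι lam r) (C : ℕ → ℝ) : Prop where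
  p : F.CBs c.m.p C
  ρ : ∀ a, F.CBs (c.m.ρ a) C
  j : F.CBs c.m.j C
  W : ∀ a, F.CBs (c.W a) C
  Φ : F.CBs c.Φ C

/-- `f` is near `x` the transport of a function with the bounds `C` -/
def BAt (F : Pre I M ι) (f : M → V) (C : ℕ → ℝ) (x : M) : Prop :=
  ∀ k, ∀ w : List ι, w.length ≤ k → ‖F.Dw w f x‖ ≤ C k

theorem FRel.bAt {F : Fr I M ι} {F' : Fr I' M' ι} (h : FRel F F' ψ O) {x : M} (hx : x ∈ O)
    {f : M' → V} {g : M → V} (e : ∀ᶠ y in 𝓝 x, g y = f (ψ y)) {C : ℕ → ℝ} (hg : F.CBs g C) :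
    BAt F'.toPre f C (ψ x) := fun k w hw => h.Dw hx w e ▸ hg.2 k w hw x

theorem cbs_of_bAt {F : Pre I M ι} {f : M → V} {C : ℕ → ℝ} (hf : Sm I f) (h : ∀ x, BAt F f C x) :
    F.CBs f C := ⟨hf, fun k w hw x => h x k w hw⟩

theorem CBs_mono {F : Pre I M ι} {f : M → V} {C C' : ℕ → ℝ} (h : F.CBs f C) (e : ∀ k, C k ≤ C' k) :
    F.CBs f C' := ⟨h.1, fun k => CB_mono (h.2 k) (e k)⟩

theorem CBc.mono {F : Pre I M ι} {c : Cfg M ι lam r} {C C' : ℕ → ℝ} (h : CBc F c C)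
    (e : ∀ k, C k ≤ C' k) : CBc F c C' :=
  ⟨CBs_mono h.p e, fun a => CBs_mono (h.ρ a) e, CBs_mono h.j e, fun a => CBs_mono (h.W a) e,
    CBs_mono h.Φ e⟩

theorem exists_cbc {F : Pre I M ι} {c : Cfg M ι lam r} : (∃ C, CBc F c C) ↔ F.Cb c.m.p ∧
    (∀ a, F.Cb (c.m.ρ a)) ∧ F.Cb c.m.j ∧ (∀ a, F.Cb (c.W a)) ∧ F.Cb c.Φ := by
  refine ⟨fun ⟨C, h⟩ => ⟨⟨C, h.p⟩, fun a => ⟨C, h.ρ a⟩, ⟨C, h.j⟩, fun a => ⟨C, h.W a⟩, C, h.Φ⟩,
    fun ⟨⟨C1, h1⟩, h2, ⟨C3, h3⟩, h4, C5, h5⟩ => ?_⟩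
  choose C2 h2 using h2
  choose C4 h4 using h4
  choose A2 k2 using fun k => (finite_range fun a => C2 a k).bddAbove
  choose A4 k4 using fun k => (finite_range fun a => C4 a k).bddAbove
  exact ⟨fun k => max (max (C1 k) (A2 k)) (max (C3 k) (max (A4 k) (C5 k))),
    CBs_mono h1 fun k => by simp,
    fun a => CBs_mono (h2 a) fun k => (k2 k ⟨a, rfl⟩).trans (by simp), CBs_mono h3 fun k => by simp,
    fun a => CBs_mono (h4 a) fun k => (k4 k ⟨a, rfl⟩).trans (by simp), CBs_mono h5 fun k => by simp⟩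

theorem exists_cbc_stab {F : Pre I M ι} {c : Cfg M ι lam r} {C : ℕ → ℝ} (h : CBc F c C) {N : ℕ}
    (J : En (Fin N)) (i : CL c.m.V (Eu (Fin N))) : ∃ C, CBc F (stab c J i) C :=
  exists_cbc.2 ⟨Cb_clm (cjL i) ⟨C, h.p⟩, fun a => Cb_clm (cjL i) ⟨C, h.ρ a⟩,
    Cb_comp (Cb_const (cjL i)) ⟨C, h.j⟩, fun a => Cb_clm (cjL i) ⟨C, h.W a⟩, Cb_clm i ⟨C, h.Φ⟩⟩

/-! ### configurations which are locally literal -/

section lit
variable {c : Cfg M' ι lam r} {c₀ : Cfg M ι lam r'} {i : CL c₀.m.V c.m.V}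

theorem GRel.admOn_lit (h : GRel B G B' G' ψ O) (h0 : AdmOn c₀ B G O) (hi : Emb c₀.m.J c.m.J i)
    (hl : ∀ x ∈ O, LitAt c c₀ i (ψ x) x) (hz : r = 0 ∨ ‖c.z‖ = 1) : AdmOn c B' G' (ψ '' O) :=
  h.admOn_iff.1 (admOn_same h.fr.op (fun x hx => (hl x hx).p) (fun b x hx => (hl x hx).ρ b)
    (fun x hx => (hl x hx).j) (stab_spec hi h.fr.op h0).1 (fun b x hx => (hl x hx).W b)
    (fun x hx => (hl x hx).Φ) hz)

/-- bounds of all data at a point -/
structure BAc (F : Pre I M ι) (c : Cfg M ι lam r) (C : ℕ → ℝ) (x : M) : Prop where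
  p : BAt F c.m.p C x
  ρ : ∀ a, BAt F (c.m.ρ a) C x
  j : BAt F c.m.j C x
  W : ∀ a, BAt F (c.W a) C x
  Φ : BAt F c.Φ C x

theorem FRel.bAc {F : Fr I M ι} {F' : Fr I' M' ι} (h : FRel F F' ψ O) {C : ℕ → ℝ}
    (h0 : CBc F.toPre (cmC ψ c) C) {x : M} (hx : x ∈ O) : BAc F'.toPre c C (ψ x) :=
  ⟨h.bAt hx (.of_forall fun _ => rfl) h0.p, fun a => h.bAt hx (.of_forall fun _ => rfl) (h0.ρ a),
    h.bAt hx (.of_forall fun _ => rfl) h0.j, fun a => h.bAt hx (.of_forall fun _ => rfl) (h0.W a),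
    h.bAt hx (.of_forall fun _ => rfl) h0.Φ⟩

theorem FRel.bAc_lit {F : Fr I M ι} {F' : Fr I' M' ι} (h : FRel F F' ψ O) {C : ℕ → ℝ}
    (h0 : CBc F.toPre (stab c₀ c.m.J i) C) (hl : ∀ x ∈ O, LitAt c c₀ i (ψ x) x) {x : M}
    (hx : x ∈ O) : BAc F'.toPre c C (ψ x) :=
  have e := (h.op.eventually_mem hx).mono hl
  ⟨h.bAt hx (e.mono fun _ k => k.p.symm) h0.p,
    fun a => h.bAt hx (e.mono fun _ k => (k.ρ a).symm) (h0.ρ a),
    h.bAt hx (e.mono fun _ k => k.j.symm) h0.j,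
    fun a => h.bAt hx (e.mono fun _ k => (k.W a).symm) (h0.W a),
    h.bAt hx (e.mono fun _ k => k.Φ.symm) h0.Φ⟩

theorem cbc_of_bAc {F : Pre I' M' ι} {C : ℕ → ℝ} (hc : c.Adm B' G') (h : ∀ x, BAc F c C x) :
    CBc F c C :=
  ⟨cbs_of_bAt hc.ok.sp fun x => (h x).p, fun a => cbs_of_bAt (hc.ok.sρ a) fun x => (h x).ρ a,
    cbs_of_bAt hc.ok.sj fun x => (h x).j,
    fun a => cbs_of_bAt (fun x => hc.conn.cc.sm a x) fun x => (h x).W a,
    cbs_of_bAt hc.sm fun x => (h x).Φ⟩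

theorem BAc.mono {F : Pre I' M' ι} {C C' : ℕ → ℝ} {x : M'} (h : BAc F c C x)
    (e : ∀ k, C k ≤ C' k) : BAc F c C' x :=
  ⟨fun k w hw => (h.p k w hw).trans (e k), fun a k w hw => (h.ρ a k w hw).trans (e k),
    fun k w hw => (h.j k w hw).trans (e k), fun a k w hw => (h.W a k w hw).trans (e k),
    fun k w hw => (h.Φ k w hw).trans (e k)⟩

end lit

/-! ### extension -/

section ext
variable {S X Y : Type} (φ : S → X) (π : X → Y) (c : Cfg S ι lam r) (β : Cfg Y ι lam r')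
  (i : CL β.m.V c.m.V)

/-- `c` on the image of `φ`, the stabilisation of `β ∘ π` elsewhere -/
@[reducible] def extC : Cfg X ι lam r :=
  ⟨⟨c.m.N, c.m.J, extend φ c.m.p fun x => cjL i (β.m.p (π x)),
    fun b => extend φ (c.m.ρ b) fun x => cjL i (β.m.ρ b (π x)),
    extend φ c.m.j fun x => cjL i ∘L β.m.j (π x)⟩,
   fun b => extend φ (c.W b) fun x => cjL i (β.W b (π x)), extend φ c.Φ fun x => i (β.Φ (π x)), c.z⟩

variable {φ}

theorem cfg_ext {N : ℕ} {J : En (Fin N)} {p p' : S → En (Fin N)} {ρ ρ' W W' : ι → S → En (Fin N)}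
    {j j' : S → CL (Eu lam) (En (Fin N))} {Φ Φ' : S → Eu (Fin N)} {z : EuclideanSpace ℂ (Fin r)}
    (e1 : p = p') (e2 : ρ = ρ') (e3 : j = j') (e4 : W = W') (e5 : Φ = Φ') :
    (⟨⟨N, J, p, ρ, j⟩, W, Φ, z⟩ : Cfg S ι lam r) = ⟨⟨N, J, p', ρ', j'⟩, W', Φ', z⟩ := by
  subst_vars; rfl

theorem cmC_extC [TopologicalSpace S] [TopologicalSpace X] (hφ : Injective φ) :
    cmC φ (extC φ π c β i) = c :=
  cfg_ext (funext (hφ.extend_apply c.m.p fun x => cjL i (β.m.p (π x))))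
    (funext fun b => funext (hφ.extend_apply (c.m.ρ b) fun x => cjL i (β.m.ρ b (π x))))
    (funext (hφ.extend_apply c.m.j fun x => cjL i ∘L β.m.j (π x)))
    (funext fun b => funext (hφ.extend_apply (c.W b) fun x => cjL i (β.W b (π x))))
    (funext (hφ.extend_apply c.Φ fun x => i (β.Φ (π x))))

variable {π c β i}

theorem litAt_extC (hφ : Injective φ) {x : X} (h : ∀ y, φ y = x → LitAt c β i y (π x)) :
    LitAt (extC φ π c β i) β i x (π x) := by
  have e : ∀ {α : Type} {f : S → α} (g : X → α), (∀ y, φ y = x → f y = g x) →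
      extend φ f g x = g x := fun g k => by
    by_cases hx : ∃ y, φ y = x
    · obtain ⟨y, rfl⟩ := hx
      exact (hφ.extend_apply _ _ y).trans (k y rfl)
    · exact extend_apply' _ _ _ hx
  exact ⟨e (fun x => cjL i (β.m.p (π x))) fun y k => (h y k).p,
    fun b => e (fun x => cjL i (β.m.ρ b (π x))) fun y k => (h y k).ρ b,
    e (fun x => cjL i ∘L β.m.j (π x)) fun y k => (h y k).j,
    fun b => e (fun x => cjL i (β.W b (π x))) fun y k => (h y k).W b,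
    e (fun x => i (β.Φ (π x))) fun y k => (h y k).Φ⟩

end ext

end

end Crest.Agent.X212.Pj41
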